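import Vale.Agent.P338.H934.LiftLoop
import Vale.Agent.P338.H933.Embed
import Vale.Agent.P338.CoreSpecD
import Vale.Agent.P338.H811.Bits

/-!
# Program F2D (stage 2): slots of the first product to the first operand of the second product
-/

set_option linter.unusedSectionVars false

namespace Vale.Agent.P338.H934.F2D

open Vale.Agent.P338 Function

/-- registers of the program F2D -/
inductive RD : Type
  | P | out | cx | cy | cz | tmp | rowA | rowB | tab | s2 | q0 | q1 | q2 | q3 | q4
  | rs | rb | rW | rSR | res
  deriving DecidableEq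

/-- contents of the registers of F2D -/
structure St : Type where
  P : List Bool
  out : List Bool
  cx : List Bool
  cy : List Bool
  cz : List Bool
  tmp : List Bool
  rowA : List Bool
  rowB : List Bool
  tab : List Bool
  s2 : List Bool
  q0 : List Bool
  q1 : List Bool
  q2 : List Bool
  q3 : List Bool
  q4 : List Bool
  rs : List Bool
  rb : List Bool
  rW : List Bool
  rSR : List Bool
  res : List Bool

namespace St

/-- as a store -/
def s (t : St) : Store RD Bool
  | .P => t.P
  | .out => t.out
  | .cx => t.cx
  | .cy => t.cy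
  | .cz => t.cz
  | .tmp => t.tmp
  | .rowA => t.rowA
  | .rowB => t.rowB
  | .tab => t.tab
  | .s2 => t.s2
  | .q0 => t.q0
  | .q1 => t.q1
  | .q2 => t.q2
  | .q3 => t.q3
  | .q4 => t.q4
  | .rs => t.rs
  | .rb => t.rb
  | .rW => t.rW
  | .rSR => t.rSR
  | .res => t.res

variable (t : St) (v : List Bool)

theorem u_P : update t.s .P v = ({t with P := v} : St).s := by funext r; cases r <;> rfl
theorem u_out : update t.s .out v = ({t with out := v} : St).s := by funext r; cases r <;> rfl
theorem u_cx : update t.s .cx v = ({t with cx := v} : St).s := by funext r; cases r <;> rfl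
theorem u_cy : update t.s .cy v = ({t with cy := v} : St).s := by funext r; cases r <;> rfl
theorem u_cz : update t.s .cz v = ({t with cz := v} : St).s := by funext r; cases r <;> rfl
theorem u_tmp : update t.s .tmp v = ({t with tmp := v} : St).s := by funext r; cases r <;> rfl
theorem u_rowA : update t.s .rowA v = ({t with rowA := v} : St).s := by funext r; cases r <;> rfl
theorem u_rowB : update t.s .rowB v = ({t with rowB := v} : St).s := by funext r; cases r <;> rfl
theorem u_tab : update t.s .tab v = ({t with tab := v} : St).s := by funext r; cases r <;> rfl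
theorem u_s2 : update t.s .s2 v = ({t with s2 := v} : St).s := by funext r; cases r <;> rfl
theorem u_q0 : update t.s .q0 v = ({t with q0 := v} : St).s := by funext r; cases r <;> rfl
theorem u_q1 : update t.s .q1 v = ({t with q1 := v} : St).s := by funext r; cases r <;> rfl
theorem u_q2 : update t.s .q2 v = ({t with q2 := v} : St).s := by funext r; cases r <;> rfl
theorem u_q3 : update t.s .q3 v = ({t with q3 := v} : St).s := by funext r; cases r <;> rfl
theorem u_q4 : update t.s .q4 v = ({t with q4 := v} : St).s := by funext r; cases r <;> rfl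
theorem u_rs : update t.s .rs v = ({t with rs := v} : St).s := by funext r; cases r <;> rfl
theorem u_rb : update t.s .rb v = ({t with rb := v} : St).s := by funext r; cases r <;> rfl
theorem u_rW : update t.s .rW v = ({t with rW := v} : St).s := by funext r; cases r <;> rfl
theorem u_rSR : update t.s .rSR v = ({t with rSR := v} : St).s := by funext r; cases r <;> rfl
theorem u_res : update t.s .res v = ({t with res := v} : St).s := by funext r; cases r <;> rfl

end St

theorem conv3 {R Γ : Type} {p : Prog R Γ} {s s' t t' : Store R Γ} {c c' : ℕ} (h : Runs p s s' c)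
    (hs : s = t) (hs' : s' = t') (hc : c ≤ c') : Runs p t t' c' := by
  subst hs hs'; exact h.weaken hc

/-- load the operands of one slot: `cx` = low `W` bits of the slot, `cy` = next entry of the row
table `rowA` (moved reversed to `rowB`) -/
def loadP : Prog RD Bool :=
  .seq (.xfer .rW .q4 .P .tmp) (.seq (.flip .tmp .cx) (.seq (.skip .rW .q4 .P)
    (.seq (.xfer .rW .q4 .rowA .tmp) (.seq (.copy .tmp .q4 .rowB) (.flip .tmp .cy)))))

theorem loadP_runs (t : St) (W : ℕ) (y e rest rowA' : List Bool) (hy : y.length = 2 * W)
    (he : e.length = W) (hP : t.P = y ++ rest) (hA : t.rowA = e ++ rowA') (hcx : t.cx = [])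
    (hcy : t.cy = []) (htmp : t.tmp = []) (hW : t.rW = zer W) (hq : t.q4 = []) :
    Runs loadP t.s ({t with
      P := rest, cx := y.take W, cy := e, rowA := rowA', rowB := e.reverse ++ t.rowB} : St).s (23 * W + 10) := by
  have l1 : (y.take W).length = W := by rw [List.length_take]; omega
  have l2 : (y.drop W).length = W := by rw [List.length_drop]; omega
  have h1 := Runs.xfer (s := t.s) (r := RD.rW) (q := .q4) (src := .P) (dst := .tmp) (a := false)
    (n := W) (u := y.take W) (v := y.drop W ++ rest)
    (by decide) (by decide) (by decide) (by decide) (by decide) (by decide) hW hq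
    (by show t.P = _; rw [hP, ← List.append_assoc, List.take_append_drop]) l1
  simp only [St.u_P, St.u_tmp] at h1
  have h2 := Runs.flip (R := RD) (r := .tmp) (q := .cx) (by decide) ({t with
    P := y.drop W ++ rest, tmp := (y.take W).reverse ++ t.s .tmp} : St).s
  simp only [St.u_cx, St.u_tmp] at h2
  have e2 : ({t with P := y.drop W ++ rest, tmp := (y.take W).reverse ++ t.s .tmp} : St).s .tmp =
    (y.take W).reverse := by show (y.take W).reverse ++ t.tmp = _; rw [htmp, List.append_nil]
  have e3 : ({t with P := y.drop W ++ rest, tmp := (y.take W).reverse ++ t.s .tmp} : St).s .cx =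
    [] := hcx
  rw [e2, e3, List.reverse_reverse, List.append_nil, List.length_reverse, l1] at h2
  have h3 := Runs.skip (s := ({t with P := y.drop W ++ rest, cx := y.take W, tmp := []} : St).s)
    (r := RD.rW) (q := .q4) (src := .P) (a := false) (n := W)
    (u := y.drop W) (v := rest) (by decide) (by decide) (by decide) hW hq rfl l2
  simp only [St.u_P] at h3
  have h4 := Runs.xfer (s := ({t with P := rest, cx := y.take W, tmp := []} : St).s)
    (r := RD.rW) (q := .q4) (src := .rowA) (dst := .tmp) (a := false)
    (n := W) (u := e) (v := rowA')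
    (by decide) (by decide) (by decide) (by decide) (by decide) (by decide) hW hq hA he
  simp only [St.u_rowA, St.u_tmp] at h4
  have h5 := Runs.copy (s := ({t with
      P := rest, cx := y.take W, tmp := e.reverse ++ [], rowA := rowA'} : St).s) (r := RD.tmp) (q := .q4) (dst := .rowB) (by decide) (by decide)
    (by decide) hq
  simp only [St.u_rowB] at h5
  have h6 := Runs.flip (R := RD) (r := .tmp) (q := .cy) (by decide) ({t with
      P := rest, cx := y.take W, tmp := e.reverse ++ [], rowA := rowA',
      rowB := e.reverse ++ [] ++ t.rowB} : St).s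
  simp only [St.u_cy, St.u_tmp] at h6
  refine conv3 (h1.seq (h2.seq (h3.seq (h4.seq (h5.seq h6))))) rfl ?_ ?_
  · obtain ⟨⟩ := t
    simp only at hcx hcy htmp
    subst hcx hcy htmp
    simp only [St.s, List.append_nil, List.reverse_reverse]
  · simp only [St.s, List.append_nil, List.length_reverse, he]
    omega

/-- one slot, including the call of `A` -/
def slotD (A : Machine) : Prog (RD ⊕ Sim.AReg A) (Bool ⊕ Sim.ASym A) :=
  .seq (loadP.lift _ _) (.seq (Sim.callU (Sim.symI A) .cx .cy .cz)
    ((Prog.flip .cz .out : Prog RD Bool).lift _ _))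

/-- lifted state -/
abbrev L (A : Machine) (t : St) : Store (RD ⊕ Sim.AReg A) (Bool ⊕ Sim.ASym A) :=
  liftStore t.s (fun _ => [])

theorem slotD_runs {A : Machine} (hAm : Multiplies A) (t : St) (W e : ℕ) (y rest rowA' : List Bool)
    (hW1 : 1 ≤ W) (he : e < 2 ^ W)
    (hy : y.length = 2 * W) (hP : t.P = y ++ rest) (hA : t.rowA = lbits W e ++ rowA')
    (hcx : t.cx = []) (hcy : t.cy = []) (hcz : t.cz = []) (htmp : t.tmp = []) (hW : t.rW = zer W)
    (hq : t.q4 = []) :
    Runs (slotD A) (L A t) (L A {t with
      P := rest, rowA := rowA', rowB := (lbits W e).reverse ++ t.rowB,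
      out := (D.mulS W e y).reverse ++ t.out})
      (6 * mulTime A W + 67 * W + 11) := by
  have hel : (lbits W e).length = W := Sim.lbits_length W e
  have l1 : (y.take W).length = W := by rw [List.length_take]; omega
  have h1 := (loadP_runs t W y (lbits W e) rest rowA' hy hel hP hA hcx hcy htmp hW hq).lift
    (Y := Sim.AReg A) (Z := Sim.ASym A) (fun _ => [])
  have h2 := Runs.callL hAm (x := RD.cx) (y := .cy) (out := .cz) (by decide) hW1
    ({t with
      P := rest, cx := y.take W, cy := lbits W e, rowA := rowA',
      rowB := (lbits W e).reverse ++ t.rowB} : St).s l1 hel hcz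
  simp only [St.u_cx, St.u_cy, St.u_cz] at h2
  have h3 := (Runs.flip (R := RD) (r := .cz) (q := .out) (by decide) ({t with
      P := rest, cx := [], cy := [], cz := mulL W (y.take W) (lbits W e), rowA := rowA',
      rowB := (lbits W e).reverse ++ t.rowB} : St).s).lift
    (Y := Sim.AReg A) (Z := Sim.ASym A) (fun _ => [])
  simp only [St.u_out, St.u_cz] at h3
  have hlen : (mulL W (y.take W) (lbits W e)).length = 2 * W := Sim.lbits_length _ _
  have hmul : mulL W (y.take W) (lbits W e) = D.mulS W e y := by
    have hv : lval (lbits W e) = e := H811.lval_lbits_of_lt he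
    unfold mulL D.mulS
    rw [hv, Nat.mul_comm (lval (y.take W)) e]
  refine conv3 (h1.seq (h2.seq h3)) rfl ?_ ?_
  · congr 1
    obtain ⟨⟩ := t
    simp only at hcx hcy hcz
    subst hcx hcy hcz
    simp only [St.s, hmul]
  · simp only [St.s, hlen]
    omega


/-- the loop over `d` -/
def dP (A : Machine) : Prog (RD ⊕ Sim.AReg A) (Bool ⊕ Sim.ASym A) :=
  .forR (.inl .s2) (.inl .q3) (slotD A)

theorem dP_runs {A : Machine} (hAm : Multiplies A) (t : St) (W S : ℕ) (e : ℕ → ℕ)
    (y : ℕ → List Bool) (rest : List Bool) (hW1 : 1 ≤ W) (he : ∀ d < S, e d < 2 ^ W)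
    (hy : ∀ d < S, (y d).length = 2 * W) (hP : t.P = cat S y ++ rest)
    (hA : t.rowA = cat S fun d => lbits W (e d))
    (hB : t.rowB = [])
    (hcx : t.cx = []) (hcy : t.cy = []) (hcz : t.cz = []) (htmp : t.tmp = []) (hW : t.rW = zer W)
    (hs2 : t.s2 = zer S) (hq3 : t.q3 = []) (hq : t.q4 = []) :
    Runs (dP A) (L A t) (L A {t with
      P := rest
      rowA := []
      rowB := (cat S fun d => lbits W (e d)).reverse
      out := (cat S fun d => D.mulS W (e d) (y d)).reverse ++ t.out})
      (S * (6 * mulTime A W + 67 * W + 15) + 2) := by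
  have h := Runs.forRL (p := slotD A) (r := RD.s2) (q := .q3) (by decide) (n := S) (fun _ => [])
    (fun d => ({t with
      P := sfx d S y ++ rest
      rowA := sfx d S fun d => lbits W (e d)
      rowB := (cat d fun d => lbits W (e d)).reverse
      out := (cat d fun d => D.mulS W (e d) (y d)).reverse ++ t.out} : St).s)
    (6 * mulTime A W + 67 * W + 11) hs2 hq3
    (by
      intro d hd
      simp only [St.u_s2, St.u_q3]
      have h1 := slotD_runs hAm ({t with
        P := sfx d S y ++ rest
        rowA := sfx d S fun d => lbits W (e d)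
        rowB := (cat d fun d => lbits W (e d)).reverse
        out := (cat d fun d => D.mulS W (e d) (y d)).reverse ++ t.out
        s2 := zer (S - 1 - d)
        q3 := zer (d + 1)} : St) W (e d) (y d) (sfx (d + 1) S y ++ rest)
        (sfx (d + 1) S fun d => lbits W (e d)) hW1 (he d hd) (hy d hd)
        (by simp only [sfx_step hd, List.append_assoc]) (by simp only [sfx_step hd])
        hcx hcy hcz htmp hW hq
      refine h1.conv ?_ le_rfl
      simp only [cat_succ_reverse, List.append_assoc])
  simp only [St.u_s2, St.u_q3] at h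
  refine conv3 h ?_ ?_ ?_
  · obtain ⟨⟩ := t
    simp only at hP hA hB
    subst hP hA hB
    simp only [sfx_zero, cat_zero, List.reverse_nil, List.nil_append]
  · obtain ⟨⟩ := t
    simp only at hP hA hB hs2 hq3
    subst hP hA hB hs2 hq3
    simp only [sfx_end, List.nil_append]
  · rfl

/-- the loop over `w'`: the row table is restored after each pass -/
def wP (A : Machine) : Prog (RD ⊕ Sim.AReg A) (Bool ⊕ Sim.ASym A) :=
  .forR (.inl .rb) (.inl .q2) (.seq (dP A) ((Prog.flip .rowB .rowA : Prog RD Bool).lift _ _))

theorem wP_runs {A : Machine} (hAm : Multiplies A) (t : St) (W S b : ℕ) (e : ℕ → ℕ)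
    (y : ℕ → ℕ → List Bool) (rest : List Bool) (hW1 : 1 ≤ W) (he : ∀ d < S, e d < 2 ^ W)
    (hy : ∀ w < b, ∀ d < S, (y w d).length = 2 * W)
    (hP : t.P = (cat b fun w => cat S (y w)) ++ rest)
    (hA : t.rowA = cat S fun d => lbits W (e d))
    (hB : t.rowB = [])
    (hcx : t.cx = []) (hcy : t.cy = []) (hcz : t.cz = []) (htmp : t.tmp = []) (hW : t.rW = zer W)
    (hs2 : t.s2 = zer S) (hb : t.rb = zer b) (hq2 : t.q2 = []) (hq3 : t.q3 = [])
    (hq : t.q4 = []) :
    Runs (wP A) (L A t) (L A {t with
      P := rest
      out := (cat b fun w => cat S fun d => D.mulS W (e d) (y w d)).reverse ++ t.out})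
      (b * (S * (6 * mulTime A W + 69 * W + 15) + 7) + 2) := by
  have hlen : (cat S fun d => lbits W (e d)).length = S * W :=
    cat_length_const (fun d _ => Sim.lbits_length _ _)
  have h := Runs.forRL (p := .seq (dP A) ((Prog.flip .rowB .rowA : Prog RD Bool).lift _ _))
    (r := RD.rb) (q := .q2) (by decide) (n := b) (fun _ => [])
    (fun w => ({t with
      P := (sfx w b fun w => cat S (y w)) ++ rest
      out := (cat w fun w => cat S fun d => D.mulS W (e d) (y w d)).reverse ++ t.out} : St).s)
    ((S * (6 * mulTime A W + 67 * W + 15) + 2) + (2 * (S * W) + 1)) hb hq2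
    (by
      intro w hw
      simp only [St.u_rb, St.u_q2]
      have h1 := dP_runs hAm ({t with
        P := (sfx w b fun w => cat S (y w)) ++ rest
        out := (cat w fun w => cat S fun d => D.mulS W (e d) (y w d)).reverse ++ t.out
        rb := zer (b - 1 - w)
        q2 := zer (w + 1)} : St) W S e (y w) ((sfx (w + 1) b fun w => cat S (y w)) ++ rest)
        hW1 he (hy w hw) (by simp only [sfx_step hw, List.append_assoc]) hA hB
        hcx hcy hcz htmp hW hs2 hq3 hq
      have h2 := (Runs.flip (R := RD) (r := .rowB) (q := .rowA) (by decide) ({t with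
        P := (sfx (w + 1) b fun w => cat S (y w)) ++ rest
        rowA := []
        rowB := (cat S fun d => lbits W (e d)).reverse
        out := (cat S fun d => D.mulS W (e d) (y w d)).reverse ++
          ((cat w fun w => cat S fun d => D.mulS W (e d) (y w d)).reverse ++ t.out)
        rb := zer (b - 1 - w)
        q2 := zer (w + 1)} : St).s).lift (Y := Sim.AReg A) (Z := Sim.ASym A) (fun _ => [])
      simp only [St.u_rowB, St.u_rowA] at h2
      refine h1.seq (h2.conv ?_ ?_)
      · congr 1
        obtain ⟨⟩ := t
        simp only at hA hB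
        subst hA hB
        simp only [cat_succ_reverse, List.append_assoc, St.s, List.reverse_reverse,
          List.append_nil]
      · simp only [St.s, List.length_reverse, hlen]
        rfl)
  simp only [St.u_rb, St.u_q2] at h
  refine conv3 h ?_ ?_ ?_
  · obtain ⟨⟩ := t
    simp only at hP
    subst hP
    simp only [sfx_zero, cat_zero, List.reverse_nil, List.nil_append]
  · obtain ⟨⟩ := t
    simp only at hb hq2
    subst hb hq2
    simp only [sfx_end, List.nil_append]
  · nlinarith

/-- load the row table of row `k` from the table stream -/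
def rowP : Prog RD Bool :=
  .seq (.forR .s2 .q2 (.xfer .rW .q4 .tab .rowB)) (.flip .rowB .rowA)

theorem rowP_runs (t : St) (W S : ℕ) (e : ℕ → List Bool) (rest : List Bool)
    (he : ∀ d < S, (e d).length = W) (htab : t.tab = cat S e ++ rest)
    (hA : t.rowA = []) (hB : t.rowB = []) (hW : t.rW = zer W) (hs2 : t.s2 = zer S)
    (hq2 : t.q2 = []) (hq : t.q4 = []) :
    Runs rowP t.s ({t with tab := rest, rowA := cat S e} : St).s
      (S * (7 * W + 6) + 3) := by
  have hlen : (cat S e).length = S * W := cat_length_const he
  have h := Runs.forR (p := .xfer .rW .q4 .tab .rowB) (r := RD.s2) (q := .q2)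
    (by decide) (a := false) (n := S)
    (fun d => ({t with
      tab := sfx d S e ++ rest
      rowB := (cat d e).reverse} : St).s)
    (5 * W + 2) hs2 hq2
    (by
      intro d hd
      simp only [St.u_s2, St.u_q2]
      have h1 := Runs.xfer (s := ({t with
        tab := sfx d S e ++ rest
        rowB := (cat d e).reverse
        s2 := List.replicate (S - 1 - d) false
        q2 := List.replicate (d + 1) false} : St).s)
        (r := RD.rW) (q := .q4) (src := .tab) (dst := .rowB) (a := false)
        (n := W) (u := e d) (v := sfx (d + 1) S e ++ rest)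
        (by decide) (by decide) (by decide) (by decide) (by decide) (by decide) hW hq
        (by show sfx d S e ++ rest = _; rw [sfx_step hd, List.append_assoc]) (he d hd)
      simp only [St.u_tab, St.u_rowB] at h1
      refine h1.conv ?_ le_rfl
      rw [cat_succ_reverse]
      rfl)
  simp only [St.u_s2, St.u_q2] at h
  have h2 := Runs.flip (R := RD) (r := .rowB) (q := .rowA) (by decide) ({t with
    tab := sfx S S e ++ rest
    rowB := (cat S e).reverse
    s2 := List.replicate S false
    q2 := []} : St).s
  simp only [St.u_rowB, St.u_rowA] at h2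
  refine conv3 (h.seq h2) ?_ ?_ ?_
  · obtain ⟨⟩ := t
    simp only at htab hB
    subst htab hB
    simp only [sfx_zero, cat_zero, List.reverse_nil]
  · obtain ⟨⟩ := t
    simp only at hA hB hs2 hq2
    subst hA hB hs2 hq2
    simp only [sfx_end, List.nil_append, St.s, List.reverse_reverse, List.append_nil]
    rfl
  · simp only [St.s, List.length_reverse, hlen]
    nlinarith

/-- the loop over `k` -/
def kP (A : Machine) : Prog (RD ⊕ Sim.AReg A) (Bool ⊕ Sim.ASym A) :=
  .forR (.inl .rs) (.inl .q1) (.seq (rowP.lift _ _) (.seq (wP A)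
    ((Prog.clear .rowA : Prog RD Bool).lift _ _)))

/-- row `k` of the result -/
def rowD (W S b : ℕ) (e : ℕ → ℕ → ℕ) (y : ℕ → ℕ → ℕ → List Bool) (k : ℕ) : List Bool :=
  cat b fun w => cat S fun d => D.mulS W (e k d) (y k w d)

theorem kP_runs {A : Machine} (hAm : Multiplies A) (t : St) (W S b : ℕ) (e : ℕ → ℕ → ℕ)
    (y : ℕ → ℕ → ℕ → List Bool) (rest : List Bool) (hW1 : 1 ≤ W)
    (he : ∀ k < S, ∀ d < S, e k d < 2 ^ W)
    (hy : ∀ k < S, ∀ w < b, ∀ d < S, (y k w d).length = 2 * W)
    (hP : t.P = (cat S fun k => cat b fun w => cat S (y k w)) ++ rest)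
    (htab : t.tab = cat S fun k => cat S fun d => lbits W (e k d))
    (hA : t.rowA = []) (hB : t.rowB = [])
    (hcx : t.cx = []) (hcy : t.cy = []) (hcz : t.cz = []) (htmp : t.tmp = []) (hW : t.rW = zer W)
    (hs : t.rs = zer S) (hs2 : t.s2 = zer S) (hb : t.rb = zer b)
    (hq1 : t.q1 = []) (hq2 : t.q2 = []) (hq3 : t.q3 = []) (hq : t.q4 = []) :
    Runs (kP A) (L A t) (L A {t with
      P := rest
      tab := []
      out := (cat S (rowD W S b e y)).reverse ++ t.out})
      (S * (b * (S * (6 * mulTime A W + 69 * W + 15) + 7) + S * (9 * W + 6) + 10) + 2) := by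
  have hlen : ∀ k, (cat S fun d => lbits W (e k d)).length = S * W := fun k =>
    cat_length_const (fun d _ => Sim.lbits_length _ _)
  have h := Runs.forRL (p := .seq (rowP.lift _ _) (.seq (wP A)
    ((Prog.clear .rowA : Prog RD Bool).lift _ _)))
    (r := RD.rs) (q := .q1) (by decide) (n := S) (fun _ => [])
    (fun k => ({t with
      P := (sfx k S fun k => cat b fun w => cat S (y k w)) ++ rest
      tab := sfx k S fun k => cat S fun d => lbits W (e k d)
      out := (cat k (rowD W S b e y)).reverse ++ t.out} : St).s)
    ((S * (7 * W + 6) + 3) + ((b * (S * (6 * mulTime A W + 69 * W + 15) + 7) + 2) +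
      (2 * (S * W) + 1))) hs hq1
    (by
      intro k hk
      simp only [St.u_rs, St.u_q1]
      have h1 := (rowP_runs ({t with
        P := (sfx k S fun k => cat b fun w => cat S (y k w)) ++ rest
        tab := sfx k S fun k => cat S fun d => lbits W (e k d)
        out := (cat k (rowD W S b e y)).reverse ++ t.out
        rs := zer (S - 1 - k)
        q1 := zer (k + 1)} : St) W S (fun d => lbits W (e k d))
        (sfx (k + 1) S fun k => cat S fun d => lbits W (e k d))
        (fun d _ => Sim.lbits_length _ _) (by simp only [sfx_step hk]) hA hB hW hs2 hq2 hq).lift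
          (Y := Sim.AReg A) (Z := Sim.ASym A) (fun _ => [])
      have h2 := wP_runs hAm ({t with
        P := (sfx k S fun k => cat b fun w => cat S (y k w)) ++ rest
        tab := sfx (k + 1) S fun k => cat S fun d => lbits W (e k d)
        rowA := cat S fun d => lbits W (e k d)
        out := (cat k (rowD W S b e y)).reverse ++ t.out
        rs := zer (S - 1 - k)
        q1 := zer (k + 1)} : St) W S b (e k) (y k)
        ((sfx (k + 1) S fun k => cat b fun w => cat S (y k w)) ++ rest) hW1 (he k hk) (hy k hk)
        (by simp only [sfx_step hk, List.append_assoc]) rfl hB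
        hcx hcy hcz htmp hW hs2 hb hq2 hq3 hq
      have h3 := (Runs.clear (R := RD) .rowA ({t with
        P := (sfx (k + 1) S fun k => cat b fun w => cat S (y k w)) ++ rest
        tab := sfx (k + 1) S fun k => cat S fun d => lbits W (e k d)
        rowA := cat S fun d => lbits W (e k d)
        out := (rowD W S b e y k).reverse ++ ((cat k (rowD W S b e y)).reverse ++ t.out)
        rs := zer (S - 1 - k)
        q1 := zer (k + 1)} : St).s).lift (Y := Sim.AReg A) (Z := Sim.ASym A) (fun _ => [])
      simp only [St.u_rowA] at h3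
      refine h1.seq (h2.seq (h3.conv ?_ ?_))
      · congr 1
        obtain ⟨⟩ := t
        simp only at hA
        subst hA
        simp only [cat_succ_reverse, List.append_assoc]
      · simp only [St.s, hlen]
        rfl)
  simp only [St.u_rs, St.u_q1] at h
  refine conv3 h ?_ ?_ ?_
  · obtain ⟨⟩ := t
    simp only at hP htab
    subst hP htab
    simp only [sfx_zero, cat_zero, List.reverse_nil, List.nil_append]
  · obtain ⟨⟩ := t
    simp only at hs hq1
    subst hs hq1
    simp only [sfx_end, List.nil_append]
  · nlinarith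


/-- first part of the main program: copy of the ruler `s`, skip the first `s` rows -/
def preP : Prog RD Bool := .seq (.copy .rs .q1 .s2) (.skip .rSR .q1 .P)

/-- last part of the main program -/
def postP : Prog RD Bool :=
  .seq (.fill .rSR .q1 .out false) (.seq (.clear .s2) (.seq (.clear .P) (.flip .out .res)))

/-- the whole program over its own registers -/
def mainP (A : Machine) : Prog (RD ⊕ Sim.AReg A) (Bool ⊕ Sim.ASym A) :=
  .seq (preP.lift _ _) (.seq (kP A) (postP.lift _ _))

theorem mainP_runs {A : Machine} (hAm : Multiplies A) (t : St) (W S b SR : ℕ) (e : ℕ → ℕ → ℕ)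
    (y : ℕ → ℕ → ℕ → List Bool) (z rest : List Bool) (hW1 : 1 ≤ W)
    (he : ∀ k < S, ∀ d < S, e k d < 2 ^ W)
    (hy : ∀ k < S, ∀ w < b, ∀ d < S, (y k w d).length = 2 * W)
    (hz : z.length = SR)
    (hP : t.P = z ++ ((cat S fun k => cat b fun w => cat S (y k w)) ++ rest))
    (htab : t.tab = cat S fun k => cat S fun d => lbits W (e k d))
    (hA : t.rowA = []) (hB : t.rowB = []) (hout : t.out = []) (hres : t.res = [])
    (hcx : t.cx = []) (hcy : t.cy = []) (hcz : t.cz = []) (htmp : t.tmp = []) (hW : t.rW = zer W)
    (hs : t.rs = zer S) (hs2 : t.s2 = []) (hb : t.rb = zer b) (hSR : t.rSR = zer SR)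
    (hq1 : t.q1 = []) (hq2 : t.q2 = []) (hq3 : t.q3 = []) (hq : t.q4 = []) :
    Runs (mainP A) (L A t) (L A {t with
      P := []
      tab := []
      res := cat S (rowD W S b e y) ++ zer SR})
      (S * (b * (S * (6 * mulTime A W + 69 * W + 15) + 7) + S * (9 * W + 6) + 10) + 12 * SR +
        2 * (cat S (rowD W S b e y)).length + 2 * rest.length + 6 * S + 11) := by
  set o := cat S (rowD W S b e y) with ho
  have h1 := Runs.copy (s := t.s) (r := RD.rs) (q := .q1) (dst := .s2) (by decide) (by decide)
    (by decide) hq1
  rw [St.u_s2] at h1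
  have h2 := Runs.skip (s := ({t with s2 := t.s .rs ++ t.s .s2} : St).s)
    (r := RD.rSR) (q := .q1) (src := .P) (a := false) (n := SR)
    (u := z) (v := (cat S fun k => cat b fun w => cat S (y k w)) ++ rest)
    (by decide) (by decide) (by decide) hSR hq1 hP hz
  rw [St.u_P] at h2
  have h3 := kP_runs hAm ({t with
    P := (cat S fun k => cat b fun w => cat S (y k w)) ++ rest
    s2 := t.s .rs ++ t.s .s2} : St) W S b e y rest hW1 he hy rfl htab hA hB hcx hcy hcz htmp hW hs
    (by show t.rs ++ t.s2 = _; rw [hs, hs2, List.append_nil]) hb hq1 hq2 hq3 hq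
  have h4 := Runs.fill (s := ({t with
    P := rest
    tab := []
    out := o.reverse ++ t.out
    s2 := t.s .rs ++ t.s .s2} : St).s) (r := RD.rSR) (q := .q1) (dst := .out) (a := false)
    (b := false) (n := SR) (by decide) (by decide) (by decide) hSR hq1
  rw [St.u_out] at h4
  have h5 := Runs.clear (R := RD) .s2 ({t with
    P := rest
    tab := []
    out := List.replicate SR false ++ (o.reverse ++ t.out)
    s2 := t.s .rs ++ t.s .s2} : St).s
  rw [St.u_s2] at h5
  have h6 := Runs.clear (R := RD) .P ({t with
    P := rest
    tab := []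
    out := List.replicate SR false ++ (o.reverse ++ t.out)
    s2 := []} : St).s
  rw [St.u_P] at h6
  have h7 := Runs.flip (R := RD) (r := .out) (q := .res) (by decide) ({t with
    P := []
    tab := []
    out := List.replicate SR false ++ (o.reverse ++ t.out)
    s2 := []} : St).s
  rw [St.u_out, St.u_res] at h7
  have hpre := (h1.seq h2).lift (Y := Sim.AReg A) (Z := Sim.ASym A) (fun _ => [])
  have hpost := (h4.seq (h5.seq (h6.seq h7))).lift (Y := Sim.AReg A) (Z := Sim.ASym A) (fun _ => [])
  refine conv3 (hpre.seq (h3.seq hpost)) rfl ?_ ?_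
  · congr 1
    obtain ⟨⟩ := t
    simp only at hout hres hs2
    subst hout hres hs2
    simp only [St.s, List.append_nil, List.reverse_append, List.reverse_reverse,
      List.reverse_replicate]
    rfl
  · have e1 : t.rs.length = S := by rw [hs, zer_length]
    have e2 : t.s2.length = 0 := by rw [hs2]; rfl
    have e4 : t.out.length = 0 := by rw [hout]; rfl
    simp only [St.s, List.length_append, List.length_reverse, List.length_replicate, e1, e2, e4]
    omega

/-- **Program F2D**, in the terms of `CoreSpecD` (`S = p - 1`). -/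
theorem f2D_runs {A : Machine} (hAm : Multiplies A) (t : St) (W b p om : ℕ)
    (y : ℕ → ℕ → List Bool) (rest : List Bool) (hW1 : 1 ≤ W) (hb1 : 1 ≤ b) (hp2 : 2 ≤ p)
    (hpW : p ≤ 2 ^ W)
    (hy : ∀ r < 2 * (p - 1), ∀ w < (p - 1) * b, (y r w).length = 2 * W)
    (hP : t.P = (cat (2 * (p - 1)) fun r => cat ((p - 1) * b) fun w => y r w) ++ rest)
    (htab : t.tab = cat (p - 1) fun k => cat (p - 1) fun d => lbits W (D.T2 p om k d))
    (hA : t.rowA = []) (hB : t.rowB = []) (hout : t.out = []) (hres : t.res = [])
    (hcx : t.cx = []) (hcy : t.cy = []) (hcz : t.cz = []) (htmp : t.tmp = []) (hW : t.rW = zer W)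
    (hs : t.rs = zer (p - 1)) (hs2 : t.s2 = []) (hb : t.rb = zer b)
    (hSR : t.rSR = zer ((p - 1) * ((p - 1) * b * (2 * W))))
    (hq1 : t.q1 = []) (hq2 : t.q2 = []) (hq3 : t.q3 = []) (hq : t.q4 = []) :
    Runs (mainP A) (L A t) (L A {t with
      P := []
      tab := []
      res := D.f2 W b p om y})
      (6 * ((p - 1) * (p - 1) * b * mulTime A W) + 200 * ((p - 1) * (p - 1) * b * W) +
        2 * rest.length + 11) := by
  obtain ⟨S, hS⟩ : ∃ S, S = p - 1 := ⟨_, rfl⟩
  have hS1 : 1 ≤ S := by omega
  rw [← hS] at hy hP htab hs hSR ⊢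
  have hT2 : ∀ k d, D.T2 p om k d < 2 ^ W := by
    intro k d
    refine lt_of_lt_of_le ?_ hpW
    unfold D.T2 D.pwm
    exact Nat.mod_lt _ (by omega)
  have hidx : ∀ w < b, ∀ d < S, w * S + d < S * b := by
    intro w hw d hd
    calc w * S + d < w * S + S := by omega
      _ = (w + 1) * S := by ring
      _ ≤ b * S := Nat.mul_le_mul_right _ hw
      _ = S * b := Nat.mul_comm _ _
  have hP' : t.P = (cat S fun r => cat (S * b) fun w => y r w) ++
      ((cat S fun k => cat b fun w => cat S fun d => y (S + k) (w * S + d)) ++ rest) := by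
    rw [hP, show 2 * S = S + S by ring, cat_add, List.append_assoc]
    congr 2
    refine cat_congr fun k _ => ?_
    rw [Nat.mul_comm S b, cat_mul]
  have hz : (cat S fun r => cat (S * b) fun w => y r w).length = S * (S * b * (2 * W)) := by
    apply cat_length_const
    intro r hr
    apply cat_length_const
    intro w hw
    exact hy r (by omega) w hw
  have h := mainP_runs hAm t W S b (S * (S * b * (2 * W))) (fun k d => D.T2 p om k d)
    (fun k w d => y (S + k) (w * S + d)) _ rest hW1 (fun k _ d _ => hT2 k d)
    (fun k hk w hw d hd => hy _ (by omega) _ (hidx w hw d hd)) hz hP' htab hA hB hout hres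
    hcx hcy hcz htmp hW hs hs2 hb hSR hq1 hq2 hq3 hq
  have hlen : (cat S (rowD W S b (fun k d => D.T2 p om k d)
      (fun k w d => y (S + k) (w * S + d)))).length = S * (b * (S * (2 * W))) := by
    apply cat_length_const
    intro k _
    apply cat_length_const
    intro w _
    apply cat_length_const
    intro d _
    exact Sim.lbits_length _ _
  refine conv3 h rfl ?_ ?_
  · unfold D.f2
    rw [← hS]
    rfl
  · rw [hlen]
    set T := mulTime A W
    have a1 : S ≤ S * S * b * W := by
      calc S = S * 1 * 1 * 1 := by ring
        _ ≤ S * S * b * W := by gcongr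
    have a2 : S * S * W ≤ S * S * b * W := by
      calc S * S * W = S * S * 1 * W := by ring
        _ ≤ S * S * b * W := by gcongr
    have a3 : S * S ≤ S * S * b * W := by
      calc S * S = S * S * 1 * 1 := by ring
        _ ≤ S * S * b * W := by gcongr
    have a4 : S * b ≤ S * S * b * W := by
      calc S * b = S * 1 * b * 1 := by ring
        _ ≤ S * S * b * W := by gcongr
    have a5 : S * S * b ≤ S * S * b * W := by
      calc S * S * b = S * S * b * 1 := by ring
        _ ≤ S * S * b * W := by gcongr
    nlinarith

end Vale.Agent.P338.H934.F2D
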