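import Vale.Agent.P338.H934.F2
import Vale.Agent.P338.H931.Parts

/-!
# F2 in the form required by `Parts`
-/

namespace Vale.Agent.P338

open Function (update)

/-- `Parts.hF2` for `F2`, with the constant `400` (and `0 < Gr`). -/
theorem F2_part (s : Store Reg Bool) (mu n Gr m : ℕ) (y : ℕ → ℕ → ℕ → List Bool)
    (rest : List Bool) (hn : n = 2 * 2 ^ mu * 2 ^ mu * Gr) (hGr : 0 < Gr) (hm : n * n ≤ m)
    (hT : TmpClean s) (hR : Rul s n (2 ^ mu)) (hcx : s .cx = [])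
    (hy : ∀ g r w, g < Gr → r < 4 * 2 ^ mu → w < n → (y g r w).length = 13 * 2 ^ mu)
    (hcz : s .cz = E.slotS n (2 ^ mu) Gr y ++ rest) (hlen : (s .cz).length ≤ 2 * m) :
    Runs F2 s (update (update s .cz []) .cx (E.f2 n (2 ^ mu) Gr y)) (400 * m) := by
  have hb : 0 < 2 ^ mu := by positivity
  have hn0 : 0 < n := by rw [hn]; positivity
  have hG : n / (2 * 2 ^ mu * 2 ^ mu) = Gr := by
    rw [hn]; exact Nat.mul_div_cancel_left _ (by positivity)
  have hd : n / (2 * 2 ^ mu) * (2 * 2 ^ mu) = n := by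
    apply Nat.div_mul_cancel
    rw [hn]; exact ⟨2 ^ mu * Gr, by ring⟩
  have hrest : rest.length ≤ 2 * m := by
    rw [hcz, List.length_append] at hlen; omega
  refine (F2_runs s n (2 ^ mu) Gr y rest hb hn0 hd (fun g hg r hr w hw => hy g r w hg hr hw) hcz hcx
    hR.rK hR.rnK (by rw [hR.rG, hG]) hR.r11b hR.rKR (hT _ rfl) (hT _ rfl) (hT _ rfl) (hT _ rfl)
    (hT _ rfl) (hT _ rfl) (hT _ rfl) (hT _ rfl) (hT _ rfl) (hT _ rfl) (hT _ rfl)).weaken ?_
  have e1 : 2 * (Gr * (n * 2 ^ mu * 2 ^ mu)) = n * n := by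
    conv_rhs => rw [hn]
    conv_lhs => rw [hn]
    ring
  have e2 : 2 ^ mu ≤ n := by
    rw [hn, show 2 * 2 ^ mu * 2 ^ mu * Gr = 2 ^ mu * (2 * 2 ^ mu * Gr) by ring]
    exact Nat.le_mul_of_pos_right _ (by positivity)
  have e3 : n ≤ n * n := Nat.le_mul_of_pos_left _ hn0
  omega

end Vale.Agent.P338
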