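import Vale.Agent.P338.CoreSpecE

/-!
# Streams `cat n f` and their suffixes
-/

namespace Vale.Agent.P338.H934

open Vale.Agent.P338

/-- the part of `cat n f` from index `i` on -/
def sfx (i n : ℕ) (f : ℕ → List Bool) : List Bool := (List.range' i (n - i)).flatMap f

theorem sfx_zero (n : ℕ) (f : ℕ → List Bool) : sfx 0 n f = cat n f := by
  simp [sfx, cat, List.range_eq_range']

theorem sfx_step {i n : ℕ} (h : i < n) (f : ℕ → List Bool) :
    sfx i n f = f i ++ sfx (i + 1) n f := by
  unfold sfx
  rw [show n - i = (n - (i + 1)) + 1 by omega, List.range'_succ, List.flatMap_cons]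

theorem sfx_end (n : ℕ) (f : ℕ → List Bool) : sfx n n f = [] := by
  simp [sfx]

theorem cat_zero (f : ℕ → List Bool) : cat 0 f = [] := rfl

theorem cat_succ (n : ℕ) (f : ℕ → List Bool) : cat (n + 1) f = cat n f ++ f n := by
  simp [cat, List.range_succ]

theorem cat_succ_reverse (n : ℕ) (f : ℕ → List Bool) :
    (cat (n + 1) f).reverse = (f n).reverse ++ (cat n f).reverse := by
  rw [cat_succ, List.reverse_append]

theorem cat_length_const {n c : ℕ} {f : ℕ → List Bool} (h : ∀ i < n, (f i).length = c) :
    (cat n f).length = n * c := by
  induction n with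
  | zero => simp [cat]
  | succ n ih =>
    rw [cat_succ, List.length_append, ih (fun i hi => h i (by omega)), h n (by omega)]
    ring

/-- splitting of a stream at index `i` -/
theorem cat_add (m n : ℕ) (f : ℕ → List Bool) :
    cat (m + n) f = cat m f ++ cat n (fun i => f (m + i)) := by
  induction n with
  | zero => simp [cat_zero]
  | succ n ih => rw [← Nat.add_assoc, cat_succ, ih, cat_succ, List.append_assoc]

theorem cat_congr {n : ℕ} {f g : ℕ → List Bool} (h : ∀ i < n, f i = g i) : cat n f = cat n g := by
  induction n with
  | zero => rfl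
  | succ n ih => rw [cat_succ, cat_succ, ih (fun i hi => h i (by omega)), h n (by omega)]

theorem zer_reverse (n : ℕ) : (zer n).reverse = zer n := List.reverse_replicate

theorem zer_length (n : ℕ) : (zer n).length = n := List.length_replicate

/-- splitting of the index into digits -/
theorem cat_mul (m k : ℕ) (f : ℕ → List Bool) :
    cat (m * k) f = cat m fun i => cat k fun j => f (i * k + j) := by
  induction m with
  | zero => simp [cat_zero]
  | succ m ih => rw [Nat.succ_mul, cat_add, ih, cat_succ]

end Vale.Agent.P338.H934
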