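import Vale.Agent.P338.H934.Cat
import Vale.Agent.P338.Reg
import Vale.Agent.P338.H763.Lib2
import Vale.Agent.P338.H933.Embed
import Vale.Agent.P338.H373.ExpsE

/-!
# Program F2: slots of the first product to the first operand of the second product
-/

set_option linter.unusedSectionVars false

namespace Vale.Agent.P338.H934

open Vale.Agent.P338 Function

/-- registers of the program F2 -/
inductive R2 : Type
  | cz | cx | out | kk | aA | aB | aC | k2 | q0 | q1 | q2 | q3 | q4 | rK | rnK | rG | r11b | rKR
  deriving DecidableEq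

/-- contents of the registers of F2 -/
structure St : Type where
  cz : List Bool
  cx : List Bool
  out : List Bool
  kk : List Bool
  aA : List Bool
  aB : List Bool
  aC : List Bool
  k2 : List Bool
  q0 : List Bool
  q1 : List Bool
  q2 : List Bool
  q3 : List Bool
  q4 : List Bool
  rK : List Bool
  rnK : List Bool
  rG : List Bool
  r11b : List Bool
  rKR : List Bool

namespace St

/-- as a store -/
def s (t : St) : Store R2 Bool
  | .cz => t.cz
  | .cx => t.cx
  | .out => t.out
  | .kk => t.kk
  | .aA => t.aA
  | .aB => t.aB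
  | .aC => t.aC
  | .k2 => t.k2
  | .q0 => t.q0
  | .q1 => t.q1
  | .q2 => t.q2
  | .q3 => t.q3
  | .q4 => t.q4
  | .rK => t.rK
  | .rnK => t.rnK
  | .rG => t.rG
  | .r11b => t.r11b
  | .rKR => t.rKR

variable (t : St) (v : List Bool)

theorem u_cz : update t.s .cz v = ({t with cz := v} : St).s := by funext r; cases r <;> rfl
theorem u_cx : update t.s .cx v = ({t with cx := v} : St).s := by funext r; cases r <;> rfl
theorem u_out : update t.s .out v = ({t with out := v} : St).s := by funext r; cases r <;> rfl
theorem u_kk : update t.s .kk v = ({t with kk := v} : St).s := by funext r; cases r <;> rfl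
theorem u_aA : update t.s .aA v = ({t with aA := v} : St).s := by funext r; cases r <;> rfl
theorem u_aB : update t.s .aB v = ({t with aB := v} : St).s := by funext r; cases r <;> rfl
theorem u_aC : update t.s .aC v = ({t with aC := v} : St).s := by funext r; cases r <;> rfl
theorem u_k2 : update t.s .k2 v = ({t with k2 := v} : St).s := by funext r; cases r <;> rfl
theorem u_q0 : update t.s .q0 v = ({t with q0 := v} : St).s := by funext r; cases r <;> rfl
theorem u_q1 : update t.s .q1 v = ({t with q1 := v} : St).s := by funext r; cases r <;> rfl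
theorem u_q2 : update t.s .q2 v = ({t with q2 := v} : St).s := by funext r; cases r <;> rfl
theorem u_q3 : update t.s .q3 v = ({t with q3 := v} : St).s := by funext r; cases r <;> rfl
theorem u_q4 : update t.s .q4 v = ({t with q4 := v} : St).s := by funext r; cases r <;> rfl
theorem u_rK : update t.s .rK v = ({t with rK := v} : St).s := by funext r; cases r <;> rfl
theorem u_rnK : update t.s .rnK v = ({t with rnK := v} : St).s := by funext r; cases r <;> rfl
theorem u_rG : update t.s .rG v = ({t with rG := v} : St).s := by funext r; cases r <;> rfl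
theorem u_r11b : update t.s .r11b v = ({t with r11b := v} : St).s := by funext r; cases r <;> rfl
theorem u_rKR : update t.s .rKR v = ({t with rKR := v} : St).s := by funext r; cases r <;> rfl

end St

theorem conv3 {R Γ : Type} {p : Prog R Γ} {s s' t t' : Store R Γ} {c c' : ℕ} (h : Runs p s s' c)
    (hs : s = t) (hs' : s' = t') (hc : c ≤ c') : Runs p t t' c' := by
  subst hs hs'; exact h.weaken hc

/-- write a slot: `|aA|` zeros, then `11b + |aB|` bits of the input slot; drop `|aA|` bits -/
def slotP : Prog R2 Bool :=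
  .seq (.fill .aA .q4 .out false)
    (.seq (.xfer .r11b .q4 .cz .out) (.seq (.xfer .aB .q4 .cz .out) (.skip .aA .q4 .cz)))

theorem slotP_runs (t : St) (b a : ℕ) (y rest : List Bool) (ha : a ≤ 2 * b)
    (hy : y.length = 13 * b) (hcz : t.cz = y ++ rest) (hA : t.aA = zer a)
    (hB : t.aB = zer (2 * b - a)) (h11 : t.r11b = zer (11 * b)) (hq : t.q4 = []) :
    Runs slotP t.s ({t with cz := rest, out := (E.slot2 b a y).reverse ++ t.out} : St).s
      (75 * b + 8) := by
  have h1 := Runs.fill (s := t.s) (r := R2.aA) (q := .q4) (dst := .out) (a := false) (b := false)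
    (n := a) (by decide) (by decide) (by decide) hA hq
  rw [St.u_out] at h1
  set y1 := y.take (11 * b) with hy1
  set y2 := (y.drop (11 * b)).take (2 * b - a) with hy2
  set y3 := y.drop (11 * b + (2 * b - a)) with hy3
  have hyy : y = y1 ++ (y2 ++ y3) := by
    rw [hy1, hy2, hy3, ← List.drop_drop, List.take_append_drop, List.take_append_drop]
  have l1 : y1.length = 11 * b := by rw [hy1, List.length_take]; omega
  have l2 : y2.length = 2 * b - a := by rw [hy2, List.length_take, List.length_drop]; omega
  have l3 : y3.length = a := by rw [hy3, List.length_drop]; omega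
  have h2 := Runs.xfer (s := ({t with out := List.replicate a false ++ t.out} : St).s)
    (r := R2.r11b) (q := .q4) (src := .cz) (dst := .out) (a := false) (n := 11 * b)
    (u := y1) (v := y2 ++ (y3 ++ rest))
    (by decide) (by decide) (by decide) (by decide) (by decide) (by decide) h11 hq
    (by
      show t.cz = _
      rw [hcz]
      conv_lhs => rw [hyy]
      simp only [List.append_assoc]) l1
  simp only [St.u_cz, St.u_out] at h2
  have h3 := Runs.xfer (s := ({t with out := y1.reverse ++ (List.replicate a false ++ t.out), cz := y2 ++ (y3 ++ rest)} : St).s)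
    (r := R2.aB) (q := .q4) (src := .cz) (dst := .out) (a := false) (n := 2 * b - a)
    (u := y2) (v := y3 ++ rest)
    (by decide) (by decide) (by decide) (by decide) (by decide) (by decide) hB hq rfl l2
  simp only [St.u_cz, St.u_out] at h3
  have h4 := Runs.skip (s := ({t with out := y2.reverse ++ (y1.reverse ++ (List.replicate a false ++ t.out)), cz := y3 ++ rest} : St).s)
    (r := R2.aA) (q := .q4) (src := .cz) (a := false) (n := a)
    (u := y3) (v := rest)
    (by decide) (by decide) (by decide) hA hq rfl l3
  simp only [St.u_cz] at h4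
  refine (h1.seq (h2.seq (h3.seq h4))).conv ?_ (by omega)
  have e : (E.slot2 b a y).reverse = y2.reverse ++ (y1.reverse ++ List.replicate a false) := by
    unfold E.slot2
    rw [show y.take (11 * b + (2 * b - a)) = y1 ++ y2 by rw [hy1, hy2, ← List.take_add]]
    simp [zer, List.append_assoc]
  rw [e]
  simp only [List.append_assoc]


/-- the loop over `d` -/
def dP : Prog R2 Bool := .forR .k2 .q3 (.seq slotP (.rotAdd .aA .aB .aC .kk .q4))

theorem dP_runs (t : St) (b k : ℕ) (y : ℕ → List Bool) (rest : List Bool) (hb : 0 < b)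
    (hk : k < 2 * b) (hy : ∀ d < 2 * b, (y d).length = 13 * b)
    (hcz : t.cz = cat (2 * b) y ++ rest) (hA : t.aA = zer k) (hB : t.aB = zer (2 * b - k))
    (hC : t.aC = []) (hkk : t.kk = zer k) (hk2 : t.k2 = zer (2 * b))
    (h11 : t.r11b = zer (11 * b)) (hq3 : t.q3 = []) (hq : t.q4 = []) :
    Runs dP t.s ({t with
      cz := rest
      out := (cat (2 * b) fun d => E.slot2 b (E.e2 b k d) (y d)).reverse ++ t.out} : St).s
      (2 * b * (95 * b + 32) + 2) := by
  have h := Runs.forR (p := .seq slotP (.rotAdd .aA .aB .aC .kk .q4)) (r := R2.k2) (q := .q3)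
    (by decide) (a := false) (n := 2 * b)
    (fun d => ({t with
      cz := sfx d (2 * b) y ++ rest
      aA := zer (E.e2 b k d)
      aB := zer (2 * b - E.e2 b k d)
      out := (cat d fun d => E.slot2 b (E.e2 b k d) (y d)).reverse ++ t.out} : St).s)
    ((75 * b + 8) + (10 * (2 * b) + 20)) hk2 hq3
    (by
      intro d hd
      simp only [St.u_k2, St.u_q3]
      have ha := E.e2_lt hb k d
      have h1 := slotP_runs ({t with
        cz := sfx d (2 * b) y ++ rest
        aA := zer (E.e2 b k d)
        aB := zer (2 * b - E.e2 b k d)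
        out := (cat d fun d => E.slot2 b (E.e2 b k d) (y d)).reverse ++ t.out
        k2 := List.replicate (2 * b - 1 - d) false
        q3 := List.replicate (d + 1) false} : St) b (E.e2 b k d) (y d)
        (sfx (d + 1) (2 * b) y ++ rest) ha.le (hy d hd)
        (by simp only [sfx_step hd, List.append_assoc]) rfl rfl h11 hq
      refine h1.seq ?_
      have h2 := Runs.rotAdd (s := ({t with
        cz := sfx (d + 1) (2 * b) y ++ rest
        aA := zer (E.e2 b k d)
        aB := zer (2 * b - E.e2 b k d)
        out := (E.slot2 b (E.e2 b k d) (y d)).reverse ++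
          ((cat d fun d => E.slot2 b (E.e2 b k d) (y d)).reverse ++ t.out)
        k2 := List.replicate (2 * b - 1 - d) false
        q3 := List.replicate (d + 1) false} : St).s)
        (A := R2.aA) (B := .aB) (C := .aC) (r := .kk) (q := .q4) (t := false) (n := 2 * b)
        (a := E.e2 b k d) (k := k) (by decide) (by decide) (by decide) (by decide) (by decide)
        (by decide) (by decide) (by decide) (by decide) (by decide) ha hk.le rfl rfl hC hkk hq
      simp only [St.u_aA, St.u_aB] at h2
      refine h2.conv ?_ le_rfl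
      rw [← E.e2_succ hb, cat_succ_reverse, List.append_assoc]
      rfl)
  simp only [St.u_k2, St.u_q3] at h
  refine conv3 h ?_ ?_ ?_
  · obtain ⟨⟩ := t
    simp only at hcz hA hB
    subst hcz hA hB
    simp only [sfx_zero, E.e2_zero hb k hk, cat_zero, List.reverse_nil, List.nil_append]
  · obtain ⟨⟩ := t
    simp only at hcz hA hB hk2 hq3
    subst hcz hA hB hk2 hq3
    simp only [sfx_end, E.e2_period hb k hk, List.nil_append]
    rfl
  · nlinarith

/-- the loop over `w'` -/
def wP : Prog R2 Bool := .forR .rnK .q2 dP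

theorem wP_runs (t : St) (b k nK : ℕ) (y : ℕ → ℕ → List Bool) (rest : List Bool) (hb : 0 < b)
    (hk : k < 2 * b) (hy : ∀ w < nK, ∀ d < 2 * b, (y w d).length = 13 * b)
    (hcz : t.cz = (cat nK fun w => cat (2 * b) (y w)) ++ rest) (hA : t.aA = zer k)
    (hB : t.aB = zer (2 * b - k))
    (hC : t.aC = []) (hkk : t.kk = zer k) (hk2 : t.k2 = zer (2 * b)) (hnK : t.rnK = zer nK)
    (h11 : t.r11b = zer (11 * b)) (hq2 : t.q2 = []) (hq3 : t.q3 = []) (hq : t.q4 = []) :
    Runs wP t.s ({t with
      cz := rest
      out := (cat nK fun w => cat (2 * b) fun d =>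
        E.slot2 b (E.e2 b k d) (y w d)).reverse ++ t.out} : St).s
      (nK * (2 * b * (95 * b + 32) + 6) + 2) := by
  have h := Runs.forR (p := dP) (r := R2.rnK) (q := .q2)
    (by decide) (a := false) (n := nK)
    (fun w => ({t with
      cz := (sfx w nK fun w => cat (2 * b) (y w)) ++ rest
      out := (cat w fun w => cat (2 * b) fun d =>
        E.slot2 b (E.e2 b k d) (y w d)).reverse ++ t.out} : St).s)
    (2 * b * (95 * b + 32) + 2) hnK hq2
    (by
      intro w hw
      simp only [St.u_rnK, St.u_q2]
      have h1 := dP_runs ({t with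
        cz := (sfx w nK fun w => cat (2 * b) (y w)) ++ rest
        out := (cat w fun w => cat (2 * b) fun d =>
          E.slot2 b (E.e2 b k d) (y w d)).reverse ++ t.out
        rnK := List.replicate (nK - 1 - w) false
        q2 := List.replicate (w + 1) false} : St) b k (y w)
        ((sfx (w + 1) nK fun w => cat (2 * b) (y w)) ++ rest) hb hk (hy w hw)
        (by simp only [sfx_step hw, List.append_assoc]) hA hB hC hkk hk2 h11 hq3 hq
      refine h1.conv ?_ le_rfl
      rw [cat_succ_reverse, List.append_assoc])
  simp only [St.u_rnK, St.u_q2] at h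
  refine conv3 h ?_ ?_ ?_
  · obtain ⟨⟩ := t
    simp only at hcz
    subst hcz
    simp only [sfx_zero, cat_zero, List.reverse_nil, List.nil_append]
  · obtain ⟨⟩ := t
    simp only at hcz hnK hq2
    subst hcz hnK hq2
    simp only [sfx_end, List.nil_append]
    rfl
  · nlinarith

/-- `k := k + 1`, both as the ruler `kk` and as the pair `aA, aB` modulo `2b` -/
def incP : Prog R2 Bool :=
  .seq (.push .kk false) (.seq (.mv .aB .aA)
    (.peek .aB fun o => if o.isSome then .nop else .flip .aA .aB))

theorem incP_runs (t : St) (b k : ℕ) (hk : k < 2 * b) (hA : t.aA = zer k)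
    (hB : t.aB = zer (2 * b - k)) (hkk : t.kk = zer k) :
    Runs incP t.s ({t with
      kk := zer (k + 1)
      aA := zer ((k + 1) % (2 * b))
      aB := zer (2 * b - (k + 1) % (2 * b))} : St).s (4 * b + 4) := by
  have h1 := Runs.push (R := R2) .kk false t.s
  rw [St.u_kk] at h1
  obtain ⟨e, he⟩ : ∃ e, 2 * b - k = e + 1 := ⟨2 * b - k - 1, by omega⟩
  have h2 := Runs.mv_cons (s := ({t with kk := false :: t.s .kk} : St).s) (r := R2.aB) (q := .aA)
    (by decide) (a := false) (l := zer e) (by show t.aB = _; rw [hB, he]; rfl)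
  rw [St.u_aB, St.u_aA] at h2
  refine (h1.seq (h2.seq (c₂ := 4 * b + 2) ?_)).weaken (by omega)
  refine (Runs.peek (c := 4 * b + 1) ?_).weaken (by omega)
  rcases Nat.eq_zero_or_pos e with h0 | h0
  · subst h0
    have h3 := Runs.flip (R := R2) (r := .aA) (q := .aB) (by decide) ({t with
      kk := false :: t.s .kk, aB := zer 0, aA := false :: ({t with kk := false :: t.s .kk} : St).s .aA} : St).s
    rw [St.u_aA, St.u_aB] at h3
    refine conv3 h3 rfl ?_ ?_
    · have e1 : (k + 1) % (2 * b) = 0 := by rw [show k + 1 = 2 * b by omega, Nat.mod_self]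
      rw [e1]
      obtain ⟨⟩ := t
      simp only at hA hB hkk
      subst hA hB hkk
      have e2 : 2 * b - 0 = k + 1 := by omega
      simp only [St.s, e2, zer, List.replicate_zero, List.append_nil, List.reverse_cons,
        List.reverse_replicate, ← List.replicate_succ', List.replicate_succ]
    · show 2 * (false :: t.aA).length + 1 ≤ _
      rw [hA, List.length_cons, zer, List.length_replicate]; omega
  · obtain ⟨e', rfl⟩ : ∃ e', e = e' + 1 := ⟨e - 1, by omega⟩
    refine conv3 (Runs.nop _) rfl ?_ (by omega)
    have e1 : (k + 1) % (2 * b) = k + 1 := Nat.mod_eq_of_lt (by omega)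
    rw [e1]
    obtain ⟨⟩ := t
    simp only at hA hB hkk
    subst hA hB hkk
    have e2 : 2 * b - (k + 1) = e' + 1 := by omega
    simp only [St.s, e2, zer, List.replicate_succ]


/-- the loop over `k` -/
def kP : Prog R2 Bool := .forR .rK .q1 (.seq wP incP)

/-- the data rows of one group of the result -/
def rows2 (b nK : ℕ) (y : ℕ → ℕ → ℕ → List Bool) (k : ℕ) : List Bool :=
  cat nK fun w => cat (2 * b) fun d => E.slot2 b (E.e2 b k d) (y k w d)

theorem kP_runs (t : St) (b nK : ℕ) (y : ℕ → ℕ → ℕ → List Bool) (rest : List Bool) (hb : 0 < b)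
    (hy : ∀ k < 2 * b, ∀ w < nK, ∀ d < 2 * b, (y k w d).length = 13 * b)
    (hcz : t.cz = (cat (2 * b) fun k => cat nK fun w => cat (2 * b) (y k w)) ++ rest)
    (hA : t.aA = []) (hB : t.aB = zer (2 * b))
    (hC : t.aC = []) (hkk : t.kk = []) (hk2 : t.k2 = zer (2 * b)) (hnK : t.rnK = zer nK)
    (hK : t.rK = zer (2 * b))
    (h11 : t.r11b = zer (11 * b)) (hq1 : t.q1 = []) (hq2 : t.q2 = []) (hq3 : t.q3 = [])
    (hq : t.q4 = []) :
    Runs kP t.s ({t with
      cz := rest
      kk := zer (2 * b)
      out := (cat (2 * b) (rows2 b nK y)).reverse ++ t.out} : St).s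
      (2 * b * (nK * (2 * b * (95 * b + 32) + 6) + 4 * b + 10) + 2) := by
  have h := Runs.forR (p := .seq wP incP) (r := R2.rK) (q := .q1)
    (by decide) (a := false) (n := 2 * b)
    (fun k => ({t with
      cz := (sfx k (2 * b) fun k => cat nK fun w => cat (2 * b) (y k w)) ++ rest
      kk := zer k
      aA := zer (k % (2 * b))
      aB := zer (2 * b - k % (2 * b))
      out := (cat k (rows2 b nK y)).reverse ++ t.out} : St).s)
    ((nK * (2 * b * (95 * b + 32) + 6) + 2) + (4 * b + 4)) hK hq1
    (by
      intro k hk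
      simp only [St.u_rK, St.u_q1]
      rw [Nat.mod_eq_of_lt hk]
      have h1 := wP_runs ({t with
        cz := (sfx k (2 * b) fun k => cat nK fun w => cat (2 * b) (y k w)) ++ rest
        kk := zer k
        aA := zer k
        aB := zer (2 * b - k)
        out := (cat k (rows2 b nK y)).reverse ++ t.out
        rK := List.replicate (2 * b - 1 - k) false
        q1 := List.replicate (k + 1) false} : St) b k nK (y k)
        ((sfx (k + 1) (2 * b) fun k => cat nK fun w => cat (2 * b) (y k w)) ++ rest) hb hk (hy k hk)
        (by simp only [sfx_step hk, List.append_assoc]) rfl rfl hC rfl hk2 hnK h11 hq2 hq3 hq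
      have h2 := incP_runs ({t with
        cz := ((sfx (k + 1) (2 * b) fun k => cat nK fun w => cat (2 * b) (y k w)) ++ rest)
        kk := zer k
        aA := zer k
        aB := zer (2 * b - k)
        out := (cat nK fun w => cat (2 * b) fun d =>
          E.slot2 b (E.e2 b k d) (y k w d)).reverse ++ ((cat k (rows2 b nK y)).reverse ++ t.out)
        rK := List.replicate (2 * b - 1 - k) false
        q1 := List.replicate (k + 1) false} : St) b k hk rfl rfl rfl
      refine h1.seq (h2.conv ?_ le_rfl)
      rw [cat_succ_reverse, List.append_assoc]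
      rfl)
  simp only [St.u_rK, St.u_q1] at h
  refine conv3 h ?_ ?_ ?_
  · obtain ⟨⟩ := t
    simp only at hcz hA hB hkk
    subst hcz hA hB hkk
    simp only [sfx_zero, cat_zero, List.reverse_nil, List.nil_append, Nat.zero_mod, Nat.sub_zero]
    rfl
  · obtain ⟨⟩ := t
    simp only at hcz hA hB hkk hK hq1
    subst hcz hA hB hkk hK hq1
    simp only [sfx_end, List.nil_append, Nat.mod_self, Nat.sub_zero]
    rfl
  · nlinarith

/-- the loop over the groups -/
def gP : Prog R2 Bool := .forR .rG .q0
  (.seq (.skip .rKR .q1 .cz) (.seq kP (.seq (.clear .kk) (.fill .rKR .q1 .out false))))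

/-- one group of the result -/
def grp2 (b nK KR : ℕ) (y : ℕ → ℕ → ℕ → List Bool) : List Bool :=
  cat (2 * b) (rows2 b nK y) ++ zer KR

theorem gP_runs (t : St) (b nK Gr KR : ℕ) (y : ℕ → ℕ → ℕ → ℕ → List Bool)
    (z : ℕ → List Bool) (rest : List Bool) (hb : 0 < b)
    (hy : ∀ g < Gr, ∀ k < 2 * b, ∀ w < nK, ∀ d < 2 * b, (y g k w d).length = 13 * b)
    (hz : ∀ g < Gr, (z g).length = KR)
    (hcz : t.cz = (cat Gr fun g => z g ++ cat (2 * b) fun k => cat nK fun w => cat (2 * b) (y g k w))
      ++ rest)
    (hA : t.aA = []) (hB : t.aB = zer (2 * b)) (hG : t.rG = zer Gr) (hKR : t.rKR = zer KR)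
    (hC : t.aC = []) (hkk : t.kk = []) (hk2 : t.k2 = zer (2 * b)) (hnK : t.rnK = zer nK)
    (hK : t.rK = zer (2 * b))
    (h11 : t.r11b = zer (11 * b)) (hq0 : t.q0 = []) (hq1 : t.q1 = []) (hq2 : t.q2 = [])
    (hq3 : t.q3 = []) (hq : t.q4 = []) :
    Runs gP t.s ({t with
      cz := rest
      out := (cat Gr fun g => grp2 b nK KR (y g)).reverse ++ t.out} : St).s
      (Gr * (10 * KR + 2 * b * (nK * (2 * b * (95 * b + 32) + 6) + 4 * b + 10) + 4 * b + 12) + 2) := by
  have h := Runs.forR (p := (.seq (.skip .rKR .q1 .cz) (.seq kP (.seq (.clear .kk)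
      (.fill .rKR .q1 .out false))))) (r := R2.rG) (q := .q0)
    (by decide) (a := false) (n := Gr)
    (fun g => ({t with
      cz := (sfx g Gr fun g => z g ++ cat (2 * b) fun k => cat nK fun w => cat (2 * b) (y g k w))
        ++ rest
      out := (cat g fun g => grp2 b nK KR (y g)).reverse ++ t.out} : St).s)
    ((5 * KR + 2) + ((2 * b * (nK * (2 * b * (95 * b + 32) + 6) + 4 * b + 10) + 2) +
      ((4 * b + 1) + (5 * KR + 2)))) hG hq0
    (by
      intro g hg
      simp only [St.u_rG, St.u_q0]
      set rest' := (sfx (g + 1) Gr fun g => z g ++ cat (2 * b) fun k =>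
        cat nK fun w => cat (2 * b) (y g k w)) ++ rest with hrest'
      have h1 := Runs.skip (s := ({t with
        cz := (sfx g Gr fun g => z g ++ cat (2 * b) fun k => cat nK fun w => cat (2 * b) (y g k w))
          ++ rest
        out := (cat g fun g => grp2 b nK KR (y g)).reverse ++ t.out
        rG := List.replicate (Gr - 1 - g) false
        q0 := List.replicate (g + 1) false} : St).s)
        (r := R2.rKR) (q := .q1) (src := .cz) (a := false) (n := KR)
        (u := z g) (v := (cat (2 * b) fun k => cat nK fun w => cat (2 * b) (y g k w)) ++ rest')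
        (by decide) (by decide) (by decide) hKR hq1
        (by
          show (sfx g Gr fun g => z g ++ cat (2 * b) fun k =>
            cat nK fun w => cat (2 * b) (y g k w)) ++ rest = _
          rw [sfx_step hg]
          simp only [List.append_assoc, hrest']) (hz g hg)
      rw [St.u_cz] at h1
      have h2 := kP_runs ({t with
        cz := (cat (2 * b) fun k => cat nK fun w => cat (2 * b) (y g k w)) ++ rest'
        out := (cat g fun g => grp2 b nK KR (y g)).reverse ++ t.out
        rG := List.replicate (Gr - 1 - g) false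
        q0 := List.replicate (g + 1) false} : St) b nK (y g) rest' hb (hy g hg) rfl hA hB hC hkk hk2
        hnK hK h11 hq1 hq2 hq3 hq
      have h3 := Runs.clear (R := R2) .kk ({t with
        cz := rest'
        kk := zer (2 * b)
        out := (cat (2 * b) (rows2 b nK (y g))).reverse ++
          ((cat g fun g => grp2 b nK KR (y g)).reverse ++ t.out)
        rG := List.replicate (Gr - 1 - g) false
        q0 := List.replicate (g + 1) false} : St).s
      rw [St.u_kk] at h3
      have h4 := Runs.fill (s := ({t with
        cz := rest'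
        kk := []
        out := (cat (2 * b) (rows2 b nK (y g))).reverse ++
          ((cat g fun g => grp2 b nK KR (y g)).reverse ++ t.out)
        rG := List.replicate (Gr - 1 - g) false
        q0 := List.replicate (g + 1) false} : St).s)
        (r := R2.rKR) (q := .q1) (dst := .out) (a := false) (b := false)
        (n := KR) (by decide) (by decide) (by decide) hKR hq1
      rw [St.u_out] at h4
      refine h1.seq (h2.seq ((h3.weaken ?_).seq (h4.conv ?_ le_rfl)))
      · show 2 * (zer (2 * b)).length + 1 ≤ _
        rw [zer_length]; omega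
      · obtain ⟨⟩ := t
        simp only at hkk
        subst hkk
        simp only [cat_succ_reverse, grp2, List.reverse_append, zer_reverse, List.append_assoc]
        rfl)
  simp only [St.u_rG, St.u_q0] at h
  refine conv3 h ?_ ?_ ?_
  · obtain ⟨⟩ := t
    simp only at hcz
    subst hcz
    simp only [sfx_zero, cat_zero, List.reverse_nil, List.nil_append]
  · obtain ⟨⟩ := t
    simp only at hcz hG hq0
    subst hcz hG hq0
    simp only [sfx_end, List.nil_append]
    rfl
  · nlinarith


/-- the whole program over its own registers -/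
def mainP : Prog R2 Bool :=
  .seq (.copy .rK .q1 .k2) (.seq (.copy .rK .q1 .aB) (.seq gP (.seq (.clear .k2)
    (.seq (.clear .aB) (.seq (.clear .cz) (.flip .out .cx))))))

theorem mainP_runs (t : St) (b nK Gr KR : ℕ) (y : ℕ → ℕ → ℕ → ℕ → List Bool)
    (z : ℕ → List Bool) (rest : List Bool) (hb : 0 < b)
    (hy : ∀ g < Gr, ∀ k < 2 * b, ∀ w < nK, ∀ d < 2 * b, (y g k w d).length = 13 * b)
    (hz : ∀ g < Gr, (z g).length = KR)
    (hcz : t.cz = (cat Gr fun g => z g ++ cat (2 * b) fun k => cat nK fun w => cat (2 * b) (y g k w))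
      ++ rest)
    (hcx : t.cx = []) (hout : t.out = [])
    (hA : t.aA = []) (hB : t.aB = []) (hG : t.rG = zer Gr) (hKR : t.rKR = zer KR)
    (hC : t.aC = []) (hkk : t.kk = []) (hk2 : t.k2 = []) (hnK : t.rnK = zer nK)
    (hK : t.rK = zer (2 * b))
    (h11 : t.r11b = zer (11 * b)) (hq0 : t.q0 = []) (hq1 : t.q1 = []) (hq2 : t.q2 = [])
    (hq3 : t.q3 = []) (hq : t.q4 = []) :
    Runs mainP t.s ({t with
      cz := []
      cx := cat Gr fun g => grp2 b nK KR (y g)} : St).s
      (Gr * (10 * KR + 2 * b * (nK * (2 * b * (95 * b + 32) + 6) + 4 * b + 10) + 4 * b + 12) +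
        2 * (cat Gr fun g => grp2 b nK KR (y g)).length + 2 * rest.length + 24 * b + 12) := by
  have h1 := Runs.copy (s := t.s) (r := R2.rK) (q := .q1) (dst := .k2) (by decide) (by decide)
    (by decide) hq1
  rw [St.u_k2] at h1
  have h2 := Runs.copy (s := ({t with k2 := t.s .rK ++ t.s .k2} : St).s)
    (r := R2.rK) (q := .q1) (dst := .aB) (by decide) (by decide)
    (by decide) hq1
  rw [St.u_aB] at h2
  have h3 := gP_runs ({t with k2 := t.s .rK ++ t.s .k2, aB := t.s .rK ++ t.s .aB} : St) b nK Gr KR
    y z rest hb hy hz hcz hA (by show t.rK ++ t.aB = _; rw [hK, hB, List.append_nil]) hG hKR hC hkk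
    (by show t.rK ++ t.k2 = _; rw [hK, hk2, List.append_nil]) hnK hK h11 hq0 hq1 hq2 hq3 hq
  set o := cat Gr fun g => grp2 b nK KR (y g) with ho
  have h4 := Runs.clear (R := R2) .k2 ({t with
    k2 := t.s .rK ++ t.s .k2, aB := t.s .rK ++ t.s .aB, cz := rest, out := o.reverse ++ t.out} : St).s
  rw [St.u_k2] at h4
  have h5 := Runs.clear (R := R2) .aB ({t with
    k2 := [], aB := t.s .rK ++ t.s .aB, cz := rest, out := o.reverse ++ t.out} : St).s
  rw [St.u_aB] at h5
  have h6 := Runs.clear (R := R2) .cz ({t with
    k2 := [], aB := [], cz := rest, out := o.reverse ++ t.out} : St).s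
  rw [St.u_cz] at h6
  have h7 := Runs.flip (R := R2) (r := .out) (q := .cx) (by decide) ({t with
    k2 := [], aB := [], cz := [], out := o.reverse ++ t.out} : St).s
  rw [St.u_out, St.u_cx] at h7
  refine conv3 (h1.seq (h2.seq (h3.seq (h4.seq (h5.seq (h6.seq h7)))))) rfl ?_ ?_
  · obtain ⟨⟩ := t
    simp only at hout hcx hB hk2
    subst hout hcx hB hk2
    simp only [St.s, List.append_nil, List.reverse_reverse]
  · have e1 : (t.s .rK).length = 2 * b := by show t.rK.length = _; rw [hK, zer_length]
    have e2 : (t.s .k2).length = 0 := by show t.k2.length = _; rw [hk2]; rfl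
    have e3 : (t.s .aB).length = 0 := by show t.aB.length = _; rw [hB]; rfl
    have e4 : t.out.length = 0 := by rw [hout]; rfl
    simp only [St.s] at e1 e2 e3
    simp only [St.s, List.length_append, List.length_reverse, e1, e2, e3, e4]
    omega

/-! ### Transport to the global registers -/

/-- registers of F2 as global registers -/
def toReg : R2 → Reg
  | .cz => .cz | .cx => .cx | .out => .t0 | .kk => .t1 | .aA => .aA | .aB => .aB | .aC => .t2
  | .k2 => .t3 | .q0 => .t4 | .q1 => .t5 | .q2 => .t6 | .q3 => .t7 | .q4 => .t8 | .rK => .rK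
  | .rnK => .rnK | .rG => .rG | .r11b => .r11b | .rKR => .rKR

/-- inverse of `toReg` -/
def ofReg : Reg → Option R2
  | .cz => some .cz | .cx => some .cx | .t0 => some .out | .t1 => some .kk | .aA => some .aA
  | .aB => some .aB | .t2 => some .aC | .t3 => some .k2 | .t4 => some .q0 | .t5 => some .q1
  | .t6 => some .q2 | .t7 => some .q3 | .t8 => some .q4 | .rK => some .rK | .rnK => some .rnK
  | .rG => some .rG | .r11b => some .r11b | .rKR => some .rKR
  | _ => none

/-- the embedding of registers -/
def embF2 : Emb R2 Reg Bool Bool :=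
  Emb.ofReg toReg ofReg (by intro r; cases r <;> rfl)
    (by intro r r' h; cases r <;> simp [ofReg] at h <;> subst h <;> rfl)

end Vale.Agent.P338.H934

namespace Vale.Agent.P338

open H934 Function

/-- **Program F2** over the global registers. -/
def F2 : Prog Reg Bool := mainP.emb embF2

theorem F2_runs (s : Store Reg Bool) (n b Gr : ℕ) (y : ℕ → ℕ → ℕ → List Bool) (rest : List Bool)
    (hb : 0 < b) (hn0 : 0 < n) (hn : n / (2 * b) * (2 * b) = n)
    (hy : ∀ g < Gr, ∀ r < 4 * b, ∀ w < n, (y g r w).length = 13 * b)
    (hcz : s .cz = E.slotS n b Gr y ++ rest) (hcx : s .cx = [])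
    (hK : s .rK = zer (2 * b)) (hnK : s .rnK = zer (n / (2 * b))) (hG : s .rG = zer Gr)
    (h11 : s .r11b = zer (11 * b)) (hKR : s .rKR = zer (2 * b * E.rowW n b))
    (hA : s .aA = []) (hB : s .aB = []) (h0 : s .t0 = []) (h1 : s .t1 = []) (h2 : s .t2 = [])
    (h3 : s .t3 = []) (h4 : s .t4 = []) (h5 : s .t5 = []) (h6 : s .t6 = []) (h7 : s .t7 = [])
    (h8 : s .t8 = []) :
    Runs F2 s (update (update s .cz []) .cx (E.f2 n b Gr y))
      (700 * (Gr * (n * b * b)) + 2 * rest.length + 24 * b + 12) := by
  set nK := n / (2 * b) with hnKdef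
  set KR := 2 * b * E.rowW n b with hKRdef
  have hlow : ∀ g < Gr, (cat (2 * b) fun r => cat n fun w => y g r w).length = KR := by
    intro g hg
    rw [cat_length_const (c := n * (13 * b))]
    · rfl
    · intro r hr
      rw [cat_length_const (c := 13 * b)]
      intro w hw
      exact hy g hg r (by omega) w hw
  have hs : E.slotS n b Gr y = cat Gr fun g => (cat (2 * b) fun r => cat n fun w => y g r w) ++
      cat (2 * b) fun k => cat nK fun w => cat (2 * b) fun d => y g (2 * b + k) (w * (2 * b) + d) := by
    unfold E.slotS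
    refine cat_congr fun g _ => ?_
    rw [show 4 * b = 2 * b + 2 * b by ring, cat_add]
    congr 1
    refine cat_congr fun k _ => ?_
    conv_lhs => rw [← hn]
    rw [cat_mul]
  have hidx : ∀ w < nK, ∀ d < 2 * b, w * (2 * b) + d < n := by
    intro w hw d hd
    calc w * (2 * b) + d < w * (2 * b) + 2 * b := by omega
      _ = (w + 1) * (2 * b) := by ring
      _ ≤ nK * (2 * b) := Nat.mul_le_mul_right _ hw
      _ = n := hn
  have hlen : (E.f2 n b Gr y).length = Gr * (52 * (n * b * b)) := by
    unfold E.f2
    rw [cat_length_const (c := 52 * (n * b * b))]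
    intro g hg
    rw [List.length_append, zer_length, cat_length_const (c := n * (13 * b))]
    · unfold E.rowW; ring
    · intro k hk
      rw [← hnKdef, cat_length_const (c := 2 * b * (13 * b))]
      · conv_rhs => rw [← hn]
        ring
      · intro w hw
        rw [cat_length_const (c := 13 * b)]
        intro d hd
        have ha := E.e2_lt hb k d
        have hyl := hy g hg (2 * b + k) (by omega) _ (hidx w hw d hd)
        unfold E.slot2
        rw [List.length_append, zer_length, List.length_take, hyl]
        omega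
  have hm := mainP_runs
    { cz := s .cz, cx := s .cx, out := s .t0, kk := s .t1, aA := s .aA, aB := s .aB, aC := s .t2,
      k2 := s .t3, q0 := s .t4, q1 := s .t5, q2 := s .t6, q3 := s .t7, q4 := s .t8, rK := s .rK,
      rnK := s .rnK, rG := s .rG, r11b := s .r11b, rKR := s .rKR }
    b nK Gr KR (fun g k w d => y g (2 * b + k) (w * (2 * b) + d))
    (fun g => cat (2 * b) fun r => cat n fun w => y g r w) rest hb
    (fun g hg k hk w hw d hd => hy g hg _ (by omega) _ (hidx w hw d hd))
    hlow (by show s .cz = _; rw [hcz, hs]) hcx h0 hA hB hG hKR h2 h1 h3 hnK hK h11 h4 h5 h6 h7 h8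
  have hf : (cat Gr fun g => grp2 b nK KR fun k w d => y g (2 * b + k) (w * (2 * b) + d)) =
      E.f2 n b Gr y := rfl
  rw [hf] at hm
  refine (hm.emb embF2 (S := s) (S' := update (update s .cz []) .cx (E.f2 n b Gr y)) ?_ ?_ ?_).weaken
    ?_
  · intro r; cases r <;> exact (List.map_id _).symm
  · intro r
    cases r <;> first
      | exact (List.map_id _).symm
  · intro r hr
    cases r <;> first
      | rfl
      | exact absurd hr (by simp [embF2, Emb.ofReg, ofReg])
  · rw [hlen]
    have e1 : KR = 26 * (n * b * b) := by rw [hKRdef]; unfold E.rowW; ring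
    have e2 : nK * (2 * b * (95 * b + 32) + 6) ≤ 130 * (n * b) := by
      have h7 : nK * (2 * b * (95 * b + 32)) = n * (95 * b + 32) := by
        rw [← Nat.mul_assoc, hn]
      have h9 : 2 * nK ≤ n := by
        calc 2 * nK = nK * 2 := by ring
          _ ≤ nK * (2 * b) := Nat.mul_le_mul_left _ (by omega)
          _ = n := hn
      have h10 : n ≤ n * b := Nat.le_mul_of_pos_right _ hb
      nlinarith
    have e3 : 2 * b * (nK * (2 * b * (95 * b + 32) + 6) + 4 * b + 10) ≤
        2 * b * (130 * (n * b) + 4 * b + 10) := by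
      apply Nat.mul_le_mul_left; omega
    have e4 : b ≤ b * b := Nat.le_mul_of_pos_left _ hb
    have e5 : b * b ≤ n * b * b := by
      rw [Nat.mul_assoc]; exact Nat.le_mul_of_pos_left _ hn0
    have e6 : 2 * b * (130 * (n * b) + 4 * b + 10) + 4 * b + 12 ≤ 304 * (n * b * b) := by
      nlinarith
    have e7 : 10 * KR + 2 * b * (nK * (2 * b * (95 * b + 32) + 6) + 4 * b + 10) + 4 * b + 12 ≤
        564 * (n * b * b) := by omega
    have e8 := Nat.mul_le_mul_left Gr e7
    nlinarith

end Vale.Agent.P338
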