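import Vale.Agent.P338.H463.CallU
import Vale.Agent.P338.H763.Lib2
import Vale.Agent.P338.H934.Cat

/-!
# For loops and calls over lifted stores
-/

set_option linter.unusedSectionVars false

namespace Vale.Agent.P338

open Function (update)

variable {R Y Z : Type} [DecidableEq R] [DecidableEq Y]

theorem liftStore_upd {Γ : Type} (s : Store R Γ) (u : Y → List (Γ ⊕ Z)) (r : R) (l : List Γ) :
    update (liftStore s u) (Sum.inl r) (l.map Sum.inl) = liftStore (update s r l) u := by
  funext k
  rcases k with k | k
  · by_cases h : k = r
    · subst h; simp [liftStore]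
    · rw [Function.update_of_ne (by simpa using h)]
      simp [liftStore, h]
  · rw [Function.update_of_ne (by simp)]
    rfl

/-- For loop over lifted stores; the body is any program over the larger machine. -/
theorem Runs.forRL {r q : R} (hrq : r ≠ q) {n : ℕ} {p : Prog (R ⊕ Y) (Bool ⊕ Z)}
    (u : Y → List (Bool ⊕ Z)) (T : ℕ → Store R Bool) (c : ℕ)
    (hr : (T 0) r = zer n) (hq : (T 0) q = [])
    (h : ∀ i < n,
      Runs p (liftStore (update (update (T i) r (zer (n - 1 - i))) q (zer (i + 1))) u)
        (liftStore (update (update (T (i + 1)) r (zer (n - 1 - i))) q (zer (i + 1))) u) c) :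
    Runs (.forR (.inl r) (.inl q) p) (liftStore (T 0) u)
      (liftStore (update (update (T n) r (zer n)) q []) u) (n * (c + 4) + 2) := by
  have hmap : ∀ k : ℕ, (List.replicate k (Sum.inl false) : List (Bool ⊕ Z)) =
      (zer k).map Sum.inl := fun k => (List.map_replicate).symm
  have h1 := Runs.forR (p := p) (r := (Sum.inl r : R ⊕ Y)) (q := Sum.inl q)
    (by simpa using hrq) (a := (Sum.inl false : Bool ⊕ Z)) (n := n)
    (fun i => liftStore (T i) u) c
    (by show (T 0 r).map Sum.inl = _; rw [hr, hmap])
    (by show (T 0 q).map Sum.inl = _; rw [hq]; rfl)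
    (by
      intro i hi
      simp only [hmap, liftStore_upd]
      exact h i hi)
  simp only [hmap, liftStore_upd] at h1
  have h2 : update (liftStore (update (T n) r (zer n)) u) (Sum.inl q) [] =
      liftStore (update (update (T n) r (zer n)) q []) u := liftStore_upd _ _ _ []
  rw [h2] at h1
  exact h1

/-- The call of `A` over lifted stores, for any register type. -/
theorem Runs.callL {A : Machine} (hA : Multiplies A) {x y out : R} (hnd : [x, y, out].Nodup)
    {m : ℕ} (hm : 1 ≤ m) (s : Store R Bool) (hx : (s x).length = m) (hy : (s y).length = m)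
    (hout : s out = []) :
    Runs (Sim.callU (Sim.symI A) x y out) (liftStore s (fun _ => []))
      (liftStore (update (update (update s x []) y []) out (mulL m (s x) (s y))) (fun _ => []))
      (6 * mulTime A m + 40 * m) := by
  have hown : ∀ s : Store R Bool,
      (Sim.own (fun r => (s r).map Sum.inl) : Store (R ⊕ Sim.AReg A) (Bool ⊕ Sim.ASym A)) =
      liftStore s (fun _ => []) := by
    intro s
    funext r
    rcases r with q | r <;> rfl
  have h := Sim.callU_runs (Sim.symI A) hA hnd hm (s x) (s y) hx hy
    (fun r => (s r).map Sum.inl) rfl rfl (by simp [hout])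
  have e1 : ∀ (s : Store R Bool) (r : R) (l : List Bool), update
      (fun r => (s r).map (Sum.inl : Bool → Bool ⊕ Sim.ASym A)) r (l.map Sum.inl) =
      fun q => (update s r l q).map Sum.inl := by
    intro s r l
    funext q
    by_cases h : q = r
    · subst h; simp
    · simp [h]
  have e2 : ∀ (s : Store R Bool) (r : R), update
      (fun r => (s r).map (Sum.inl : Bool → Bool ⊕ Sim.ASym A)) r [] =
      fun q => (update s r [] q).map Sum.inl := fun s r => e1 s r []
  have e3 : ∀ (s : Store R Bool) (r : R) (l : List Bool), update
      (fun r => (s r).map (Sum.inl : Bool → Bool ⊕ Sim.ASym A)) r (l.map (Sim.symI A).bit) =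
      fun q => (update s r l q).map Sum.inl := fun s r l => e1 s r l
  simp only [e2, e3, hown] at h
  exact h

end Vale.Agent.P338
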